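import Crest.Agent.N228.J.JC
import Crest.Agent.N222.J.Main

/-!
# Row 228, solver layer (helper41): existence, comparison, continuity, localisation

`QQ M b u = div X + b(X)`, `X = ∇u / W`.  The equation is `QQ M b u = Φ (c, u, 1 / W)`.
-/

set_option autoImplicit false
set_option linter.unusedSectionVars false
open Set Filter Topology Function
open scoped ContDiff UniformConvergence
open Crest.Agent.N222

noncomputable section

namespace Crest.Agent.N228.J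

variable {d : ℕ} {ι : Type} [Fintype ι] [DecidableEq ι] {X : Type} [TopologicalSpace X]
  {A : J.Atl d X} {U : Set X}

/-- `div X + b(X)` -/
abbrev QQ (M : Imm d ι X) (b : ι → X → ℝ) (u : X → ℝ) : X → ℝ := M.pre.hb b u (M.vv u)

section Basic

variable {M : Imm d ι X} {b : ι → X → ℝ} {u w : X → ℝ} {p : X}

theorem QQ_apply (M : Imm d ι X) (b : ι → X → ℝ) (u : X → ℝ) (p : X) :
    QQ M b u p = M.pre.dv (M.Xf u) p + ∑ a, M.Xf u a p * b a p := by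
  simp only [QQ, Pre.hb, Pi.add_apply, Finset.sum_apply, Pi.mul_apply]; rfl

theorem QQ_grad (M : Imm d ι X) (F u : X → ℝ) : QQ M (fun a => M.pre.D a F) u = M.hF F u := rfl

theorem QQ_congr (h : u =ᶠ[𝓝 p] w) : QQ M b u p = QQ M b w p := by
  let _ : MeasurableSpace X := ⊥
  simp only [QQ_apply, Imm.dv_apply, Imm.D_congr (Imm.Xf_eventuallyEq h _), Imm.Xf_congr h]

theorem QQ_neg (M : Imm d ι X) (b : ι → X → ℝ) (u : X → ℝ) (p : X) :
    QQ M b (fun q => -u q) p = -QQ M b u p := by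
  let _ : MeasurableSpace X := ⊥
  simp only [QQ_apply, Imm.dv_apply, Imm.Xf_neg, Imm.D_neg, neg_mul, Finset.sum_neg_distrib,
    neg_add]

theorem QQ_add_const (M : Imm d ι X) (b : ι → X → ℝ) (u : X → ℝ) (t : ℝ) :
    QQ M b (fun q => u q + t) = QQ M b u := by
  let _ : MeasurableSpace X := ⊥
  funext p
  simp only [QQ_apply, Imm.Xf_add_const]

theorem vv_const (M : Imm d ι X) (s : ℝ) (p : X) : M.vv (fun _ => s) p = 1 := by
  simp [Imm.vv, Imm.gam_apply, Imm.D_const]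

theorem QQ_const (M : Imm d ι X) (b : ι → X → ℝ) (s : ℝ) (p : X) : QQ M b (fun _ => s) p = 0 := by
  let _ : MeasurableSpace X := ⊥
  have h : ∀ a, M.Xf (fun _ => s) a = fun _ => 0 := fun a => funext fun q => by
    rw [Imm.Xf_apply, Imm.D_const, mul_zero]
  simp [QQ_apply, Imm.dv_apply, h, Imm.D_const]

theorem smN_of_sm (hA : A.ch = M.ch) (hu : M.Sm u) (p : X) : A.SmN u p :=
  ((M.smOn_univ hA).2 hu).smN isOpen_univ (mem_univ p)

theorem sm_QQ (hb : ∀ a, M.Sm (b a)) (hu : M.Sm u) : M.Sm (QQ M b u) :=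
  JC.sm (A := M.atl) (Λ := Unit) rfl ((Fm.fixed M rfl isOpen_univ).pj.hb (Y := fun _ => b)
    (fun a => JC.of_sm rfl isOpen_univ (hb a)) (JC.of_sm rfl isOpen_univ hu)
    (JC.of_sm rfl isOpen_univ hu.vv)) ()

/-- **touching graphs** (germs) -/
theorem touchN (hb : ∀ a, M.Sm (b a)) (hu : M.atl.SmN u p) (hw : M.atl.SmN w p)
    (h : IsLocalMax (fun q => u q - w q) p) : M.vv u p = M.vv w p ∧ QQ M b u p ≤ QQ M b w p := by
  obtain ⟨e1, e2⟩ := J.mtouch isOpen_univ (M.jop_on hb M.atl rfl) (mem_univ p) hu hw h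
  exact ⟨congrArg (·⁻¹) e1, e2⟩

/-- **touching graphs** -/
theorem touch (hb : ∀ a, M.Sm (b a)) (hu : M.Sm u) (hw : M.Sm w)
    (h : IsLocalMax (fun q => u q - w q) p) : M.vv u p = M.vv w p ∧ QQ M b u p ≤ QQ M b w p :=
  touchN hb (smN_of_sm rfl hu p) (smN_of_sm rfl hw p) h

theorem QQ_nonpos (hb : ∀ a, M.Sm (b a)) (hu : M.Sm u) (h : IsLocalMax u p) :
    M.vv u p = 1 ∧ QQ M b u p ≤ 0 := by
  have := touch hb hu (Imm.sm_const 0) (p := p) (by simpa using h)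
  rwa [vv_const, QQ_const] at this


end Basic

variable {P : Type} [NormedAddCommGroup P] [NormedSpace ℝ P] {Φ : P × ℝ × ℝ → ℝ} {I : Set ℝ}
  {C : Set P}

section Fixed

variable {M : Imm d ι X} {b : ι → X → ℝ} {u w wm wp : X → ℝ} {c : X → P} {p : X}

/-- viscosity subsolution at a point -/
def Sub (M : Imm d ι X) (b : ι → X → ℝ) (Φ : P × ℝ × ℝ → ℝ) (c : X → P) (w : X → ℝ) (p : X) :
    Prop := J.VSub M.atl (M.jop b) Φ c w p

/-- viscosity supersolution at a point -/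
def Sup (M : Imm d ι X) (b : ι → X → ℝ) (Φ : P × ℝ × ℝ → ℝ) (c : X → P) (w : X → ℝ) (p : X) :
    Prop := J.VSup M.atl (M.jop b) Φ c w p

theorem sub_of_sm (hb : ∀ a, M.Sm (b a)) (hw : M.Sm w) (h : Φ (c p, w p, M.vv w p) ≤ QQ M b w p) :
    Sub M b Φ c w p :=
  J.vsub_of_sm isOpen_univ (M.jop_on hb M.atl rfl) (mem_univ p) (smN_of_sm rfl hw p) h

theorem sup_of_sm (hb : ∀ a, M.Sm (b a)) (hw : M.Sm w) (h : QQ M b w p ≤ Φ (c p, w p, M.vv w p)) :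
    Sup M b Φ c w p :=
  J.vsup_of_sm isOpen_univ (M.jop_on hb M.atl rfl) (mem_univ p) (smN_of_sm rfl hw p) h

theorem sub_const (hb : ∀ a, M.Sm (b a)) {s : ℝ} (h : Φ (c p, s, 1) ≤ 0) :
    Sub M b Φ c (fun _ => s) p := sub_of_sm hb (Imm.sm_const s) (by rwa [vv_const, QQ_const])

theorem sup_const (hb : ∀ a, M.Sm (b a)) {s : ℝ} (h : 0 ≤ Φ (c p, s, 1)) :
    Sup M b Φ c (fun _ => s) p := sup_of_sm hb (Imm.sm_const s) (by rwa [vv_const, QQ_const])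

theorem Sub.of_le (h : Sub M b Φ c w p) (e : w p = u p) (hle : ∀ᶠ q in 𝓝 p, w q ≤ u q) :
    Sub M b Φ c u p := J.VSub.of_le h e hle

theorem Sup.of_le (h : Sup M b Φ c w p) (e : w p = u p) (hle : ∀ᶠ q in 𝓝 p, u q ≤ w q) :
    Sup M b Φ c u p := J.VSup.of_le h e hle

theorem Sub.congr (h : Sub M b Φ c w p) (e : w =ᶠ[𝓝 p] u) : Sub M b Φ c u p :=
  h.of_le e.eq_of_nhds e.le

theorem Sup.congr (h : Sup M b Φ c w p) (e : w =ᶠ[𝓝 p] u) : Sup M b Φ c u p :=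
  h.of_le e.eq_of_nhds e.symm.le

theorem Sub.max (h : Sub M b Φ c w p) (h' : Sub M b Φ c u p) :
    Sub M b Φ c (fun q => max (w q) (u q)) p := J.VSub.max h h'

theorem Sup.min (h : Sup M b Φ c w p) (h' : Sup M b Φ c u p) :
    Sup M b Φ c (fun q => min (w q) (u q)) p := J.VSup.min h h'

/-- testing a subsolution -/
theorem Sub.test (h : Sub M b Φ c w p) (hu : M.Sm u) (hm : IsLocalMax (fun q => w q - u q) p) :
    Φ (c p, w p, M.vv u p) ≤ QQ M b u p := h u (smN_of_sm rfl hu p) hm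

theorem Sup.test (h : Sup M b Φ c w p) (hu : M.Sm u) (hm : IsLocalMin (fun q => w q - u q) p) :
    QQ M b u p ≤ Φ (c p, w p, M.vv u p) := h u (smN_of_sm rfl hu p) hm

/-- **SOL** on an open set -/
theorem exists_sol_on [T2Space X] [FiniteDimensional ℝ P] (hU : IsOpen U) (hb : ∀ a, M.Sm (b a))
    (hΦ : J.Good Φ I C) (hc : M.atl.SmOn U c) (hC : ∀ p ∈ U, c p ∈ C) (hm : ContinuousOn wm U)
    (hp : ContinuousOn wp U) (hI : ∀ p ∈ U, wm p ∈ I ∧ wp p ∈ I ∧ wm p ≤ wp p)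
    (h1 : ∀ p ∈ U, Sub M b Φ c wm p) (h2 : ∀ p ∈ U, Sup M b Φ c wp p) :
    ∃ u, M.atl.SmOn U u ∧ ∀ p ∈ U, QQ M b u p = Φ (c p, u p, M.vv u p) ∧ wm p ≤ u p ∧ u p ≤ wp p := by
  obtain ⟨u, ⟨hu, he⟩, hbd⟩ := J.perron' d X M.atl P (M.jop b) Φ I c U wm wp hU
    ((M.jop_on hb M.atl rfl).mono hU (subset_univ _))
    (hΦ.mono (by rintro _ ⟨p, hp, rfl⟩; exact hC p hp)) hc hm hp hI h1 h2
  exact ⟨u, hu, fun p hp => ⟨he p hp, hbd p hp⟩⟩

/-- **SOL** -/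
theorem exists_sol [T2Space X] [FiniteDimensional ℝ P] (hb : ∀ a, M.Sm (b a))
    (hΦ : J.Good Φ I C) (hc : M.Sm c) (hC : ∀ p, c p ∈ C) (hm : Continuous wm)
    (hp : Continuous wp) (hI : ∀ p, wm p ∈ I ∧ wp p ∈ I ∧ wm p ≤ wp p)
    (h1 : ∀ p, Sub M b Φ c wm p) (h2 : ∀ p, Sup M b Φ c wp p) :
    ∃ u, M.Sm u ∧ ∀ p, QQ M b u p = Φ (c p, u p, M.vv u p) ∧ wm p ≤ u p ∧ u p ≤ wp p := by
  obtain ⟨u, hu, h⟩ := exists_sol_on isOpen_univ hb hΦ ((M.smOn_univ rfl).2 hc) (fun p _ => hC p)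
    hm.continuousOn hp.continuousOn (fun p _ => hI p) (fun p _ => h1 p) fun p _ => h2 p
  exact ⟨u, (M.smOn_univ rfl).1 hu, fun p => h p (mem_univ p)⟩

/-- **SOL** between two constants -/
theorem exists_sol_const [T2Space X] [FiniteDimensional ℝ P] (hb : ∀ a, M.Sm (b a))
    (hΦ : J.Good Φ I C) (hc : M.Sm c) (hC : ∀ p, c p ∈ C) {s t : ℝ} (hs : s ∈ I) (ht : t ∈ I)
    (hst : s ≤ t) (h1 : ∀ p, Φ (c p, s, 1) ≤ 0) (h2 : ∀ p, 0 ≤ Φ (c p, t, 1)) :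
    ∃ u, M.Sm u ∧ ∀ p, QQ M b u p = Φ (c p, u p, M.vv u p) ∧ s ≤ u p ∧ u p ≤ t :=
  exists_sol hb hΦ hc hC continuous_const continuous_const (fun _ => ⟨hs, ht, hst⟩)
    (fun p => sub_const hb (h1 p)) fun p => sup_const hb (h2 p)

theorem vv_mem (M : Imm d ι X) (u : X → ℝ) (p : X) : M.vv u p ∈ Icc (0 : ℝ) 1 :=
  ⟨(M.vv_pos u p).le, M.vv_le_one u p⟩

/-- **CMP** on a compact set `K`, equation on an open part `U`; `w` viscosity subsolution -/
theorem sub_le (hΦ : J.Good Φ I C) {K : Set X} (hK : IsCompact K) (hU : IsOpen U) (hUK : U ⊆ K)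
    (hw : ContinuousOn w K) (hu : M.Sm u) (hI : ∀ p ∈ U, c p ∈ C ∧ w p ∈ I ∧ u p ∈ I)
    (h1 : ∀ p ∈ U, Sub M b Φ c w p) (h2 : ∀ p ∈ U, QQ M b u p ≤ Φ (c p, u p, M.vv u p))
    (h3 : ∀ p ∈ K, p ∉ U → w p ≤ u p) : ∀ p ∈ K, w p ≤ u p := by
  intro p hp
  obtain ⟨q, hq, hm⟩ := hK.exists_isMaxOn ⟨p, hp⟩ (hw.sub hu.continuous.continuousOn)
  have h4 : w p - u p ≤ w q - u q := hm hp
  by_contra hh
  have h5 : u q < w q := by linarith [not_le.1 hh]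
  have hqU : q ∈ U := by_contra fun h => absurd (h3 q hq h) (not_le.2 h5)
  have := hΦ.strictMonoOn (hI q hqU).1 (vv_mem M u q) (hI q hqU).2.2 (hI q hqU).2.1 h5
  linarith [(h1 q hqU).test hu (hm.isLocalMax (mem_of_superset (hU.mem_nhds hqU) hUK)), h2 q hqU]


/-- **CMP** for smooth functions -/
theorem cmp (hb : ∀ a, M.Sm (b a)) (hΦ : J.Good Φ I C) {K : Set X} (hK : IsCompact K)
    (hU : IsOpen U) (hUK : U ⊆ K) (hw : M.Sm w) (hu : M.Sm u)
    (hI : ∀ p ∈ U, c p ∈ C ∧ w p ∈ I ∧ u p ∈ I)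
    (h1 : ∀ p ∈ U, Φ (c p, w p, M.vv w p) ≤ QQ M b w p)
    (h2 : ∀ p ∈ U, QQ M b u p ≤ Φ (c p, u p, M.vv u p))
    (h3 : ∀ p ∈ K, p ∉ U → w p ≤ u p) : ∀ p ∈ K, w p ≤ u p :=
  sub_le hΦ hK hU hUK hw.continuous.continuousOn hu hI (fun p hp => sub_of_sm hb hw (h1 p hp)) h2 h3

/-- **CMP** on a compact manifold -/
theorem cmp_cpt [CompactSpace X] (hb : ∀ a, M.Sm (b a)) (hΦ : J.Good Φ I C) (hw : M.Sm w)
    (hu : M.Sm u) (hI : ∀ p, c p ∈ C ∧ w p ∈ I ∧ u p ∈ I)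
    (h1 : ∀ p, Φ (c p, w p, M.vv w p) ≤ QQ M b w p) (h2 : ∀ p, QQ M b u p ≤ Φ (c p, u p, M.vv u p))
    (p : X) : w p ≤ u p :=
  cmp hb hΦ isCompact_univ isOpen_univ subset_rfl hw hu (fun p _ => hI p) (fun p _ => h1 p)
    (fun p _ => h2 p) (fun p _ h => (h (mem_univ p)).elim) p (mem_univ p)

end Fixed

section Cont

variable [FiniteDimensional ℝ P] {Λ : Type} [TopologicalSpace Λ] [FirstCountableTopology Λ]
  {N : Λ → Imm d ι X} {b : Λ → ι → X → ℝ} {c : Λ → X → P} {u : Λ → X → ℝ}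

/-- **CONT** -/
theorem cont (hN : Fm A U N) (hbs : ∀ l a, (N l).Sm (b l a)) (hb : ∀ a, JC A U fun l => b l a)
    (hΦ : J.Good Φ I C) (hc : JC A U c) (hu : ∀ l, A.SmOn U (u l))
    (hI : ∀ l, ∀ p ∈ U, c l p ∈ C ∧ u l p ∈ I)
    (he : ∀ l, ∀ p ∈ U, QQ (N l) (b l) (u l) p = Φ (c l p, u l p, (N l).vv (u l) p))
    (h0 : ∀ l0, ∀ ε > 0, ∃ K ⊆ U, IsCompact K ∧ ∀ᶠ l in 𝓝 l0, ∀ p ∈ U \ K, |u l p - u l0 p| ≤ ε) :
    JC A U u := by
  have hU := hc.1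
  have hfd : ∀ p i, J.CJ (A.tg p U) fun l z => fderiv ℝ ((N l).x ∘ (A.ch p).symm) z (ee i) :=
    fun p i => ((hN.x.2 p).fd (hc.op p)).app (hc.op p) (J.CJ.const _)
  refine ⟨hU, J.cont' d X A P Λ (fun l => (N l).jop (b l)) Φ I C c U u hU
    (fun l => ((N l).jop_on (hbs l) A (hN.ch l).symm).mono hU (subset_univ _)) hΦ
    (fun l p hp => (hI l p hp).1) (fun p i j => ?_) (fun p => ?_) hc.2
    (fun l => ⟨hu l, he l⟩) (fun l p hp => (hI l p hp).2) h0⟩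
  · simp only [Imm.jop, hN.ch, gram, Matrix.of_apply]
    exact ((hfd p i).prodMk (hc.op p) (hfd p j)).comp_smooth (hc.op p)
      (Φ := fun q : E ι × E ι => inner ℝ q.1 q.2) (contDiff_fst.inner ℝ contDiff_snd)
  · simp only [Imm.jop, hN.ch]
    exact J.CJ.pi (hc.op p) fun i => J.CJ.sum (hc.op p) fun a =>
      ((hb a).2 p).mul (hc.op p) ((hfd p i).clm (hc.op p) (EuclideanSpace.proj a))

/-- **CONT** on a compact manifold -/
theorem cont_cpt [CompactSpace X] (hN : Fm A univ N) (hb : ∀ a, JC A univ fun l => b l a)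
    (hΦ : J.Good Φ I C) (hc : JC A univ c) (hu : ∀ l, (N l).Sm (u l))
    (hI : ∀ l p, c l p ∈ C ∧ u l p ∈ I)
    (he : ∀ l p, QQ (N l) (b l) (u l) p = Φ (c l p, u l p, (N l).vv (u l) p)) : JC A univ u :=
  cont hN (fun l a => (hb a).sm (hN.ch l).symm l) hb hΦ hc
    (fun l => ((N l).smOn_univ (hN.ch l).symm).2 (hu l)) (fun l p _ => hI l p) (fun l p _ => he l p)
    fun _ _ _ => ⟨univ, subset_rfl, isCompact_univ,
      Eventually.of_forall fun _ _ hp => (hp.2 hp.1).elim⟩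

/-- **LOC**, variable data -/
theorem cont_unif (hN : Fm A U N) (hbs : ∀ l a, (N l).Sm (b l a))
    (hb : ∀ a, JC A U fun l => b l a) (hΦ : J.Good Φ I C) (hc : JC A U c)
    (hu : ∀ l, A.SmOn U (u l)) (hI : ∀ l, ∀ p ∈ U, c l p ∈ C ∧ u l p ∈ I)
    (he : ∀ l, ∀ p ∈ U, QQ (N l) (b l) (u l) p = Φ (c l p, u l p, (N l).vv (u l) p))
    (h0 : ∀ l0, ∀ ε > 0, ∀ᶠ l in 𝓝 l0, ∀ p ∈ U, |u l p - u l0 p| ≤ ε) : JC A U u :=
  cont hN hbs hb hΦ hc hu hI he fun l0 ε hε =>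
    ⟨∅, empty_subset _, isCompact_empty, (h0 l0 ε hε).mono fun _ h p hp => h p hp.1⟩

end Cont

/-! ### the topology of uniform convergence on `U` -/

/-- the type `T`, with the topology of uniform convergence of `u t` on `U` -/
def Un {T : Type} (_U : Set X) (_u : T → X → ℝ) : Type := T

namespace Un

variable {T : Type} {u : T → X → ℝ}

instance (U : Set X) (u : T → X → ℝ) : PseudoEMetricSpace (Un U u) :=
  PseudoEMetricSpace.induced (fun t : T => (UniformFun.ofFun fun p : U => u t p : U →ᵤ ℝ))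
    inferInstance

theorem eventually_iff {t0 : Un U u} {R : Un U u → Prop} : (∀ᶠ t in 𝓝 t0, R t) ↔
    ∃ δ > 0, ∀ t : T, (∀ p ∈ U, |u t p - u t0 p| < δ) → R t := by
  have h := (UniformFun.hasBasis_nhds_of_basis U ℝ (UniformFun.ofFun fun p : U => u t0 p)
    Metric.uniformity_basis_dist).comap
    (fun t : T => (UniformFun.ofFun fun p : U => u t p : U →ᵤ ℝ))
  rw [← nhds_induced] at h
  refine h.eventually_iff.trans (exists_congr fun δ => and_congr_right fun _ =>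
    forall_congr' fun t => imp_congr_left ?_)
  simp only [mem_preimage, mem_ofPred_eq, UniformFun.gen, Subtype.forall, Real.dist_eq,
    UniformFun.toFun_ofFun, abs_sub_comm (u t _)]

end Un

/-- **LOC**: `C⁰` closeness of solutions on `U` is `C^∞` closeness on compact parts of `U`.
Use `Un.eventually_iff` to read the neighbourhood filter. -/
theorem loc [FiniteDimensional ℝ P] {M : Imm d ι X} (hA : A.ch = M.ch) (hU : IsOpen U)
    {b : ι → X → ℝ} (hb : ∀ a, M.Sm (b a)) (hΦ : J.Good Φ I C) {c : X → P} (hc : A.SmOn U c)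
    {T : Type} {u : T → X → ℝ} (hu : ∀ t, A.SmOn U (u t)) (hI : ∀ t, ∀ p ∈ U, c p ∈ C ∧ u t p ∈ I)
    (he : ∀ t, ∀ p ∈ U, QQ M b (u t) p = Φ (c p, u t p, M.vv (u t) p)) :
    JC A U fun t : Un U u => u t :=
  cont_unif (N := fun _ => M) (b := fun _ => b) (Fm.fixed M hA hU) (fun _ => hb)
    (fun a => JC.of_sm hA hU (hb a)) hΦ (JC.fixed hU hc) hu hI he fun _ ε hε =>
      Un.eventually_iff.2 ⟨ε, hε, fun _ h p hp => (h p hp).le⟩

end Crest.Agent.N228.J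

end
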